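import Vale.Agent.P205.Legal.Gauss
import Vale.Agent.P205.Wave.Recursion

/-!
What legality needs from the algebra of normal parts: the kernel of the next phase, the gain of
one wave, and the lower bounds entering the data of a wave.
-/

noncomputable section

open Real
open scoped ContDiff

namespace Vale.Agent.P205.Legal

open Wave (V4 ip D gram2 ip_comm)

/-- **The next kernel.** If `h, M, W` are the normal parts in the directions `ee, ev, vv` and the
curvature term is at most `C ^ 2 |h| ^ 2`, the direction `e + 2 τ v` bends at least half as much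
as `e`, for `τ C ≤ 1 / 16`. -/
theorem next_kernel {h M W : V4} {C τ : ℝ} (hC : 0 ≤ C) (hτ : 0 ≤ τ) (hτC : τ * C ≤ 1 / 16)
    (hM : len M ≤ C * len h) (hK : |ip h W - ip M M| ≤ C ^ 2 * ip h h) :
    len h / 2 ≤ len (h + (4 * τ) • M + (4 * τ ^ 2) • W) := by
  rcases (len_nonneg h).eq_or_lt with h0 | h0
  · rw [← h0]; simpa using len_nonneg _
  refine le_of_mul_le_mul_left ?_ h0
  have e : ip h (h + (4 * τ) • M + (4 * τ ^ 2) • W) =
      ip (h + (2 * τ) • M) (h + (2 * τ) • M) + 4 * τ ^ 2 * (ip h W - ip M M) := by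
    simp [ip_comm M h]; ring
  have low : len h * (7 / 8) ≤ len (h + (2 * τ) • M) := by
    have h1 := len_sub_le (h + (2 * τ) • M) ((2 * τ) • M)
    rw [add_sub_cancel_right, len_smul, abs_of_nonneg (by positivity : (0 : ℝ) ≤ 2 * τ)] at h1
    have h2 : τ * len M ≤ 1 / 16 * len h := by
      calc τ * len M ≤ τ * (C * len h) := mul_le_mul_of_nonneg_left hM hτ
        _ = τ * C * len h := by ring
        _ ≤ _ := mul_le_mul_of_nonneg_right hτC h0.le
    linarith
  have sq := pow_le_pow_left₀ (by positivity : (0 : ℝ) ≤ len h * (7 / 8)) low 2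
  have tk : |4 * τ ^ 2 * (ip h W - ip M M)| ≤ 4 * (1 / 16) ^ 2 * len h ^ 2 := by
    rw [abs_mul, abs_of_nonneg (by positivity : (0 : ℝ) ≤ 4 * τ ^ 2)]
    calc 4 * τ ^ 2 * |ip h W - ip M M| ≤ 4 * τ ^ 2 * (C ^ 2 * ip h h) :=
          mul_le_mul_of_nonneg_left hK (by positivity)
      _ = 4 * (τ * C) ^ 2 * len h ^ 2 := by rw [len_sq]; ring
      _ ≤ _ := by
          have hp := pow_le_pow_left₀ (mul_nonneg hτ hC) hτC 2
          nlinarith [sq_nonneg (len h)]
  have hcs := (le_abs_self _).trans (abs_ip_le h (h + (4 * τ) • M + (4 * τ ^ 2) • W))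
  rw [e, ← len_sq (h + (2 * τ) • M)] at hcs
  nlinarith [(abs_le.1 tk).1]

variable {E : Type} [NormedAddCommGroup E] [NormedSpace ℝ E]

/-- The same for the second form in two directions. -/
theorem next_kernel_nn {Z : E → V4} {x e v : E} (hZ : ContDiffAt ℝ 2 Z x) {C τ : ℝ} (hC : 0 ≤ C)
    (hτ : 0 ≤ τ) (hτC : τ * C ≤ 1 / 16)
    (hM : len (nn e v Z e v x) ≤ C * len (nn e v Z e e x))
    (hK : |ip (nn e v Z e e x) (nn e v Z v v x) - ip (nn e v Z e v x) (nn e v Z e v x)| ≤
      C ^ 2 * ip (nn e v Z e e x) (nn e v Z e e x)) :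
    len (nn e v Z e e x) / 2 ≤
      len (nn e v Z ((1 : ℝ) • e + (2 * τ) • v) ((1 : ℝ) • e + (2 * τ) • v) x) := by
  refine (next_kernel hC hτ hτC hM hK).trans (le_of_eq (congrArg len ?_))
  simp only [nn, D2_comb hZ, D_comb, D_symm hZ v e, perp2_add, perp2_smul]
  module

omit [NormedAddCommGroup E] [NormedSpace ℝ E] in
/-- The curvature term is bounded by the squares of the second form. -/
theorem gauss_bound (h M W : V4) :
    |ip h W - ip M M| ≤ ip h h + 2 * ip M M + ip W W := by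
  refine (gauss_le h M W).trans ?_
  linarith [ip_self_nonneg h, ip_self_nonneg M, ip_self_nonneg W]

variable (W : Wave.Data E)

/-- The Gram determinant of a wave is at least the bend of the kernel. -/
theorem gram_ge {x : E} (hi : 0 < gram2 (W.Ze x) (W.Zv x)) :
    ip (W.Ze x) (W.Ze x) * ip (nn W.e W.v W.Z W.e W.e x) (nn W.e W.v W.Z W.e W.e x) ≤
      gram2 (W.Ze x) (W.Zee x) :=
  gram2_ge hi _

/-- The old speed of a wave in terms of the bend of the kernel. -/
theorem aa_sq_mul {x : E} (hi : gram2 (W.Ze x) (W.Zv x) ≠ 0)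
    (hg : gram2 (W.Ze x) (W.Zee x) ≠ 0) :
    W.aa x ^ 2 * gram2 (W.Ze x) (W.Zee x) =
      ip (nn W.e W.v W.Z W.e W.e x) (nn W.e W.v W.Z W.e W.e x) * gram2 (W.Ze x) (W.Zv x) := by
  have e : W.Zv x - W.bb x = perp2 (W.Ze x) (W.Zee x) (W.Zv x) := by
    simp only [Wave.Data.bb, Wave.Data.lift, perp2, ip_comm (W.Zv x)]
  rw [Wave.Data.aa, e, Real.sq_sqrt (ip_self_nonneg _), perp2_sq_swap hi hg]
  rfl

variable {W} [FiniteDimensional ℝ E]

/-- **One wave never decreases the bend of its kernel.** -/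
theorem bend_mono (hW : W.Good) {x : E} (hx : x ∈ W.Ω) (s : ℝ) :
    len (nn W.e W.v W.Z W.e W.e x) ≤ len (perp2 (W.Ze x) (W.vel x s) (W.Zee x)) := by
  obtain ⟨t1, t2, n1, n2, tt, nu, tn, hv⟩ := Wave.Data.frame hW hx
  have hG := hW.gram_pos x hx
  have ha := Wave.Data.aa_pos' hW hx
  have hl : W.aa x ≤ W.ell x :=
    Real.le_sqrt_of_sq_le (le_add_of_nonneg_right (sq_nonneg _))
  obtain ⟨α, β, hb⟩ : ∃ α β : ℝ, W.bb x = α • W.Ze x + β • W.Zee x := ⟨_, _, rfl⟩
  have hcs : W.cs x s ^ 2 + W.sn x s ^ 2 = 1 := by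
    have : 0 < 1 + (W.amp x * Real.sin s) ^ 2 := by positivity
    unfold Wave.Data.cs Wave.Data.sn
    field_simp
    ring
  show len (perp2 (W.Ze x) (W.Zv x) (W.Zee x)) ≤ _
  rw [hv, Wave.Data.vel_eq hW hx, hb]
  refine perp2_wave hG ha hl ⟨tt, t1, t2⟩ ⟨?_, by simp [t1, n1], by simp [t2, n2]⟩
  simp [tt, nu, tn, ip_comm (W.nu x) (W.tau x)]
  linear_combination hcs

end Vale.Agent.P205.Legal
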