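import Vale.Agent.P205.Chart

/-!
Flat cut-offs in a chart: products, and the trade of the flatness for a small power of the
frequency.
-/

noncomputable section

open Finset Real
open scoped ContDiff

namespace Vale.Agent.P205.Legal

/-- The exponent of `Flat`. -/
def expo (d : ℕ) : ℝ := (d : ℝ) / (d + 1)

theorem expo_nonneg (d : ℕ) : 0 ≤ expo d := by unfold expo; positivity

theorem expo_le_one (d : ℕ) : expo d ≤ 1 := by
  unfold expo
  rw [div_le_one (by positivity)]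
  simp

theorem rpow_expo_pow {y : ℝ} (hy : 0 ≤ y) (d : ℕ) : (y ^ expo d) ^ (d + 1) = y ^ d := by
  rw [← Real.rpow_natCast (y ^ expo d) (d + 1), ← Real.rpow_mul hy,
    show expo d * ((d + 1 : ℕ) : ℝ) = (d : ℝ) by
      unfold expo; push_cast; field_simp,
    Real.rpow_natCast]

theorem root_le {x B y : ℝ} (hy : 0 ≤ y) (d : ℕ)
    (h : x ^ (d + 1) ≤ B ^ (d + 1) * y ^ d) : x ≤ |B| * y ^ expo d := by
  refine le_of_pow_le_pow_left₀ (Nat.succ_ne_zero d)
    (mul_nonneg (abs_nonneg B) (Real.rpow_nonneg hy _)) ?_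
  rw [mul_pow, rpow_expo_pow hy, ← abs_pow]
  exact h.trans (mul_le_mul_of_nonneg_right (le_abs_self _) (pow_nonneg hy d))

variable {S : Set R2} {C C' : ℕ → ℕ → ℝ} {K : ℝ} {χ f g : R2 → ℝ}

/-- Flatness as a bound by a real power. -/
theorem flat_bound (h : Flat S C K χ) (hK : 0 ≤ K) {z : R2} (hz : z ∈ S) (i d : ℕ) :
    ‖iteratedFDeriv ℝ i χ z‖ ≤ |C i d| * K ^ i * χ z ^ expo d := by
  have h' := root_le (h z hz).1 d ((h z hz).2 i d)
  rwa [abs_mul, abs_of_nonneg (pow_nonneg hK i)] at h'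

/-- The converse. -/
theorem flat_of_bound (hK : 0 ≤ K) (h0 : ∀ z ∈ S, 0 ≤ χ z)
    (h : ∀ z ∈ S, ∀ i d, ‖iteratedFDeriv ℝ i χ z‖ ≤ C i d * K ^ i * χ z ^ expo d) :
    Flat S C K χ := by
  refine fun z hz => ⟨h0 z hz, fun i d => ?_⟩
  refine (pow_le_pow_left₀ (norm_nonneg _) (h z hz i d) (d + 1)).trans (le_of_eq ?_)
  have := hK
  rw [mul_pow, rpow_expo_pow (h0 z hz)]

/-- The constants of a product. -/
def mulConst (C C' : ℕ → ℕ → ℝ) (i d : ℕ) : ℝ :=
  ∑ l ∈ range (i + 1), (i.choose l : ℝ) * (|C l d| * |C' (i - l) d|)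

theorem mulConst_nonneg (C C' : ℕ → ℕ → ℝ) (i d : ℕ) : 0 ≤ mulConst C C' i d :=
  sum_nonneg fun l _ => by positivity

/-- **Products of flat cut-offs are flat.** -/
theorem flat_mul (hf : Flat S C K f) (hg : Flat S C' K g) (hK : 0 ≤ K) (hfs : ContDiff ℝ ∞ f)
    (hgs : ContDiff ℝ ∞ g) : Flat S (mulConst C C') K fun z => f z * g z := by
  refine flat_of_bound hK (fun z hz => mul_nonneg (hf z hz).1 (hg z hz).1) fun z hz i d => ?_
  have hf0 := (hf z hz).1
  have hg0 := (hg z hz).1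
  refine (norm_iteratedFDeriv_mul_le hfs hgs z
    (WithTop.coe_le_coe.2 (le_top : (i : ℕ∞) ≤ ⊤))).trans ?_
  rw [mulConst, sum_mul, sum_mul]
  refine sum_le_sum fun l hl => ?_
  have hli : l ≤ i := Nat.lt_succ_iff.1 (mem_range.1 hl)
  calc (i.choose l : ℝ) * ‖iteratedFDeriv ℝ l f z‖ * ‖iteratedFDeriv ℝ (i - l) g z‖
      ≤ (i.choose l : ℝ) * (|C l d| * K ^ l * f z ^ expo d) *
          (|C' (i - l) d| * K ^ (i - l) * g z ^ expo d) := by
        gcongr
        · exact flat_bound hf hK hz l d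
        · exact flat_bound hg hK hz (i - l) d
    _ = _ := by
        rw [Real.mul_rpow hf0 hg0]
        have hk : K ^ i = K ^ l * K ^ (i - l) := by rw [← pow_add, Nat.add_sub_cancel' hli]
        rw [hk]
        ring

/-- Raising a flat cut-off to twice itself. -/
theorem flat_sq (hf : Flat S C K f) (hK : 0 ≤ K) (hfs : ContDiff ℝ ∞ f) :
    Flat S (mulConst C C) K fun z => f z ^ 2 := by
  have h := flat_mul hf hf hK hfs hfs
  simpa only [pow_two] using h

/-- `χ ^ (1 - d) k ≤ k ^ d (1 + χ k)`. -/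
theorem trade {x k d : ℝ} (hx : 0 ≤ x) (hk : 0 < k) (hd0 : 0 ≤ d) (hd1 : d ≤ 1) :
    x ^ (1 - d) * k ≤ k ^ d * (1 + x * k) := by
  have hkk : k = k ^ (1 - d) * k ^ d := by
    rw [← Real.rpow_add hk]; simp
  have h0 : 0 ≤ x * k := mul_nonneg hx hk.le
  have h1 : (x * k) ^ (1 - d) ≤ 1 + x * k := by
    rcases le_total (x * k) 1 with h | h
    · exact (Real.rpow_le_one h0 h (by linarith)).trans (by linarith)
    · exact (Real.rpow_le_rpow_of_exponent_le h (by linarith : 1 - d ≤ 1)).trans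
        (by rw [Real.rpow_one]; linarith)
  conv_lhs => arg 2; rw [hkk]
  rw [← mul_assoc, ← Real.mul_rpow hx hk.le, mul_comm (k ^ d)]
  exact mul_le_mul_of_nonneg_right h1 (Real.rpow_nonneg hk.le d)

/-- The same in the exponent of `Flat`. -/
theorem trade_expo {x k : ℝ} (hx : 0 ≤ x) (hk : 0 < k) (d : ℕ) :
    x ^ expo d * k ≤ k ^ (1 / ((d : ℝ) + 1)) * (1 + x * k) := by
  have e : expo d = 1 - 1 / ((d : ℝ) + 1) := by unfold expo; field_simp; ring
  rw [e]
  exact trade hx hk (by positivity) (by rw [div_le_one (by positivity)]; simp)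

end Vale.Agent.P205.Legal
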