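import Vale.Agent.P205.Legal.Vec

/-!
The equation of Gauss in coordinates, for two directions in any parameter space, its stability
under small changes of the metric, and the second form in a chart.
-/

noncomputable section

open Real
open scoped ContDiff

namespace Vale.Agent.P205.Legal

open Wave (V4 ip D gram2 ip_comm)

variable {E : Type} [NormedAddCommGroup E] [NormedSpace ℝ E]

/-- The normal part of `D a D b Z` with respect to the plane of the directions `u, v`. -/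
def nn (u v : E) (Z : E → V4) (a b : E) (x : E) : V4 :=
  perp2 (D u Z x) (D v Z x) (D a (D b Z) x)

theorem sff_eq_nn (X : R2 → V4) (z a b : R2) : sff X z a b = nn (pt 1 0) (pt 0 1) X a b z := rfl

/-- The quadratic terms of the curvature. -/
def quadForm (g1 g2 g3 a1 a2 b1 b2 c1 c2 : ℝ) : ℝ :=
  ((g3 * a1 * c1 - g2 * a1 * c2 - g2 * a2 * c1 + g1 * a2 * c2) -
    (g3 * b1 * b1 - g2 * b1 * b2 - g2 * b2 * b1 + g1 * b2 * b2)) / (g1 * g3 - g2 * g2)

/-- Curvature times the determinant, from the components of a metric in the directions `u, v`. -/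
def gnum (u v : E) (g1 g2 g3 : E → ℝ) (x : E) : ℝ :=
  D u (D v g2) x - D v (D v g1) x / 2 - D u (D u g3) x / 2 -
    quadForm (g1 x) (g2 x) (g3 x) (D u g1 x / 2) (D u g2 x - D v g1 x / 2)
      (D v g1 x / 2) (D u g3 x / 2) (D v g2 x - D u g3 x / 2) (D v g3 x / 2)

theorem D_congr {F : Type} [NormedAddCommGroup F] [NormedSpace ℝ F] {f g : E → F} {x : E}
    (h : f =ᶠ[nhds x] g) (a : E) : D a f x = D a g x := by
  simp only [D, h.fderiv_eq]

theorem D_ip {f g : E → V4} {x : E} (hf : DifferentiableAt ℝ f x) (hg : DifferentiableAt ℝ g x)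
    (a : E) : D a (fun y => ip (f y) (g y)) x = ip (D a f x) (g x) + ip (f x) (D a g x) := by
  have h : ∀ i ∈ Finset.univ, HasFDerivAt (fun y => f y i * g y i)
      (f x i • (ContinuousLinearMap.proj i).comp (fderiv ℝ g x) +
        g x i • (ContinuousLinearMap.proj i).comp (fderiv ℝ f x)) x := fun i _ =>
    (hasFDerivAt_pi'.1 hf.hasFDerivAt i).mul (hasFDerivAt_pi'.1 hg.hasFDerivAt i)
  simp only [D, ip]
  rw [(HasFDerivAt.fun_sum h).fderiv]
  simp [← Finset.sum_add_distrib]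
  exact Finset.sum_congr rfl fun i _ => by ring

theorem D_symm {F : Type} [NormedAddCommGroup F] [NormedSpace ℝ F] {f : E → F} {x : E}
    (hf : ContDiffAt ℝ 2 f x) (a b : E) : D a (D b f) x = D b (D a f) x := by
  have hd : DifferentiableAt ℝ (fderiv ℝ f) x :=
    (hf.fderiv_right (m := 1) (by norm_num)).differentiableAt (by norm_num)
  have e : ∀ c d : E, D c (D d f) x = fderiv ℝ (fderiv ℝ f) x c d := fun c d => by
    show fderiv ℝ (fun y => fderiv ℝ f y d) x c = _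
    rw [fderiv_clm_apply hd (differentiableAt_const d)]
    simp
  rw [e, e]
  exact (hf.isSymmSndFDerivAt (by simp)) a b

theorem D_comb {F : Type} [NormedAddCommGroup F] [NormedSpace ℝ F] (f : E → F) (x a b : E)
    (r s : ℝ) : D (r • a + s • b) f x = r • D a f x + s • D b f x := by
  simp [D]

theorem D2_comb {F : Type} [NormedAddCommGroup F] [NormedSpace ℝ F] {f : E → F} {x : E}
    (hf : ContDiffAt ℝ 2 f x) (c a b : E) (r s : ℝ) :
    D c (D (r • a + s • b) f) x = r • D c (D a f) x + s • D c (D b f) x := by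
  rw [D_symm hf, D_comb, D_symm hf a c, D_symm hf b c]

variable {Ω : Set E} {Z : E → V4}

theorem diffAt_D (hΩ : IsOpen Ω) (hZ : ContDiffOn ℝ ∞ Z Ω) (a : E) {x : E} (hx : x ∈ Ω) :
    DifferentiableAt ℝ (D a Z) x :=
  ((Wave.contDiffOn_D hΩ hZ a).differentiableOn (by simp)).differentiableAt (hΩ.mem_nhds hx)

theorem D_metric (hΩ : IsOpen Ω) (hZ : ContDiffOn ℝ ∞ Z Ω) (a b c : E) {x : E} (hx : x ∈ Ω) :
    D c (fun y => ip (D a Z y) (D b Z y)) x =
      ip (D c (D a Z) x) (D b Z x) + ip (D a Z x) (D c (D b Z) x) :=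
  D_ip (diffAt_D hΩ hZ a hx) (diffAt_D hΩ hZ b hx) c

theorem D2_metric (hΩ : IsOpen Ω) (hZ : ContDiffOn ℝ ∞ Z Ω) (a b c d : E) {x : E} (hx : x ∈ Ω) :
    D d (D c (fun y => ip (D a Z y) (D b Z y))) x =
      ip (D d (D c (D a Z)) x) (D b Z x) + ip (D c (D a Z) x) (D d (D b Z) x) +
        (ip (D d (D a Z) x) (D c (D b Z) x) + ip (D a Z x) (D d (D c (D b Z)) x)) := by
  have hA := Wave.contDiffOn_D hΩ hZ a
  have hB := Wave.contDiffOn_D hΩ hZ b
  have d1 := ((Wave.contDiffOn_D hΩ hA c).differentiableOn (by simp)).differentiableAt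
    (hΩ.mem_nhds hx)
  have d2 := ((Wave.contDiffOn_D hΩ hB c).differentiableOn (by simp)).differentiableAt
    (hΩ.mem_nhds hx)
  have e : D c (fun y => ip (D a Z y) (D b Z y)) =ᶠ[nhds x]
      fun y => ip (D c (D a Z) y) (D b Z y) + ip (D a Z y) (D c (D b Z) y) := by
    filter_upwards [hΩ.mem_nhds hx] with y hy using D_metric hΩ hZ a b c hy
  rw [D_congr e]
  have s1 : DifferentiableAt ℝ (fun y => ip (D c (D a Z) y) (D b Z y)) x :=
    ((Wave.contDiffOn_ip (Wave.contDiffOn_D hΩ hA c) hB).differentiableOn (by simp)).differentiableAt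
      (hΩ.mem_nhds hx)
  have s2 : DifferentiableAt ℝ (fun y => ip (D a Z y) (D c (D b Z) y)) x :=
    ((Wave.contDiffOn_ip hA (Wave.contDiffOn_D hΩ hB c)).differentiableOn (by simp)).differentiableAt
      (hΩ.mem_nhds hx)
  conv_lhs => rw [D, fderiv_fun_add s1 s2]
  show D d (fun y => ip (D c (D a Z) y) (D b Z y)) x +
    D d (fun y => ip (D a Z y) (D c (D b Z) y)) x = _
  rw [D_ip d1 (diffAt_D hΩ hZ b hx), D_ip (diffAt_D hΩ hZ a hx) d2]

/-- **Gauss.** -/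
theorem gauss (hΩ : IsOpen Ω) (hZ : ContDiffOn ℝ ∞ Z Ω) (u v : E) {x : E} (hx : x ∈ Ω)
    (hg : gram2 (D u Z x) (D v Z x) ≠ 0) :
    ip (nn u v Z u u x) (nn u v Z v v x) - ip (nn u v Z u v x) (nn u v Z u v x) =
      gnum u v (fun y => ip (D u Z y) (D u Z y)) (fun y => ip (D u Z y) (D v Z y))
        (fun y => ip (D v Z y) (D v Z y)) x := by
  have h2 : ContDiffAt ℝ 2 Z x :=
    (hZ.contDiffAt (hΩ.mem_nhds hx)).of_le (WithTop.coe_le_coe.2 (le_top : (2 : ℕ∞) ≤ ⊤))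
  have hDu : ContDiffAt ℝ 2 (D u Z) x :=
    ((Wave.contDiffOn_D hΩ hZ u).contDiffAt (hΩ.mem_nhds hx)).of_le
      (WithTop.coe_le_coe.2 (le_top : (2 : ℕ∞) ≤ ⊤))
  have hDv : ContDiffAt ℝ 2 (D v Z) x :=
    ((Wave.contDiffOn_D hΩ hZ v).contDiffAt (hΩ.mem_nhds hx)).of_le
      (WithTop.coe_le_coe.2 (le_top : (2 : ℕ∞) ≤ ⊤))
  have hsym : D v (D u Z) x = D u (D v Z) x := D_symm h2 v u
  have hev : (D v (D u Z)) =ᶠ[nhds x] D u (D v Z) := by
    filter_upwards [hΩ.mem_nhds hx] with y hy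
    exact D_symm ((hZ.contDiffAt (hΩ.mem_nhds hy)).of_le
      (WithTop.coe_le_coe.2 (le_top : (2 : ℕ∞) ≤ ⊤))) v u
  have t1 : D v (D v (D u Z)) x = D v (D u (D v Z)) x := D_congr hev v
  have t2 : D u (D v (D u Z)) x = D v (D u (D u Z)) x := D_symm hDu u v
  have t3 : D u (D u (D v Z)) x = D v (D u (D u Z)) x := by
    rw [← D_congr hev u, t2]
  have t4 : D v (D u (D v Z)) x = D u (D v (D v Z)) x := D_symm hDv v u
  simp only [gnum, nn, D2_metric hΩ hZ _ _ _ _ hx, D_metric hΩ hZ _ _ _ hx, t1, t2, t3, t4, hsym]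
  have hd : ip (D u Z x) (D u Z x) * ip (D v Z x) (D v Z x) -
      ip (D u Z x) (D v Z x) * ip (D u Z x) (D v Z x) = gram2 (D u Z x) (D v Z x) := by
    unfold gram2; ring
  simp only [ip_perp2_perp hg, quadForm, hd,
    ip_comm (D u (D u Z) x) (D u Z x), ip_comm (D u (D u Z) x) (D v Z x),
    ip_comm (D u (D v Z) x) (D u Z x), ip_comm (D u (D v Z) x) (D v Z x),
    ip_comm (D v (D v Z) x) (D v Z x),
    ip_comm (D v (D u (D u Z)) x) (D v Z x), ip_comm (D u (D v (D v Z)) x) (D u Z x)]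
  ring

/-- The Gauss combination is at most the squared size of the second form. -/
theorem gauss_le (p q w : V4) :
    |ip p w - ip q q| ≤ ip p p / 2 + ip q q + ip w w / 2 := by
  have h1 := abs_ip_le p w
  have h2 := ip_self_nonneg q
  have h3 : len p * len w ≤ ip p p / 2 + ip w w / 2 := by
    nlinarith [sq_nonneg (len p - len w), len_sq p, len_sq w]
  refine (abs_sub _ _).trans ?_
  rw [abs_of_nonneg h2]
  linarith

/-- Two numbers of size at most `B` that differ by at most `η`. -/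
def Near (B η p p' : ℝ) : Prop := |p| ≤ B ∧ |p'| ≤ B ∧ |p - p'| ≤ η

theorem triple_diff {B η x y z x' y' z' : ℝ} (hx : Near B η x x') (hy : Near B η y y')
    (hz : Near B η z z') :
    |x * y * z - x' * y' * z'| ≤ 3 * (B * B) * η ∧ |x' * y' * z'| ≤ B * B * B := by
  obtain ⟨x1, x2, x3⟩ := hx
  obtain ⟨y1, y2, y3⟩ := hy
  obtain ⟨z1, z2, z3⟩ := hz
  have hB : 0 ≤ B := (abs_nonneg x).trans x1
  have hη : 0 ≤ η := (abs_nonneg _).trans x3
  refine ⟨?_, by rw [abs_mul, abs_mul]; gcongr⟩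
  have e : x * y * z - x' * y' * z' =
      x * y * (z - z') + x * (y - y') * z' + (x - x') * y' * z' := by ring
  rw [e]
  refine (abs_add_three _ _ _).trans ?_
  simp only [abs_mul]
  have a1 : |x| * |y| * |z - z'| ≤ B * B * η := by gcongr
  have a2 : |x| * |y - y'| * |z'| ≤ B * η * B := by gcongr
  have a3 : |x - x'| * |y'| * |z'| ≤ η * B * B := by gcongr
  linarith

/-- The bilinear terms in the numerator of `quadForm`. -/
def bilNum (g1 g2 g3 a1 a2 c1 c2 : ℝ) : ℝ :=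
  g3 * a1 * c1 - g2 * a1 * c2 - g2 * a2 * c1 + g1 * a2 * c2

theorem bilNum_diff {B η g1 g2 g3 a1 a2 c1 c2 g1' g2' g3' a1' a2' c1' c2' : ℝ}
    (hg1 : Near B η g1 g1') (hg2 : Near B η g2 g2') (hg3 : Near B η g3 g3')
    (ha1 : Near B η a1 a1') (ha2 : Near B η a2 a2') (hc1 : Near B η c1 c1')
    (hc2 : Near B η c2 c2') :
    |bilNum g1 g2 g3 a1 a2 c1 c2 - bilNum g1' g2' g3' a1' a2' c1' c2'| ≤ 12 * (B * B) * η ∧
      |bilNum g1' g2' g3' a1' a2' c1' c2'| ≤ 4 * (B * B * B) := by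
  obtain ⟨d1, s1⟩ := triple_diff hg3 ha1 hc1
  obtain ⟨d2, s2⟩ := triple_diff hg2 ha1 hc2
  obtain ⟨d3, s3⟩ := triple_diff hg2 ha2 hc1
  obtain ⟨d4, s4⟩ := triple_diff hg1 ha2 hc2
  rw [abs_le] at d1 d2 d3 d4 s1 s2 s3 s4
  simp only [bilNum, abs_le]
  refine ⟨⟨?_, ?_⟩, ?_, ?_⟩ <;> linarith

theorem quadForm_eq (g1 g2 g3 a1 a2 b1 b2 c1 c2 : ℝ) : quadForm g1 g2 g3 a1 a2 b1 b2 c1 c2 =
    (bilNum g1 g2 g3 a1 a2 c1 c2 - bilNum g1 g2 g3 b1 b2 b1 b2) / (g1 * g3 - g2 * g2) := rfl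

theorem div_diff {B η N N' Δ Δ' : ℝ} (hB : 1 ≤ B) (hN : |N - N'| ≤ 24 * (B * B) * η)
    (hN' : |N'| ≤ 8 * (B * B * B)) (hΔ : |Δ' - Δ| ≤ 4 * B * η) (hd : 1 ≤ B * |Δ|)
    (hd' : 1 ≤ B * |Δ'|) : |N / Δ - N' / Δ'| ≤ 60 * B ^ 6 * η := by
  have hB0 : 0 < B := zero_lt_one.trans_le hB
  have hΔ0 : 0 < |Δ| := by nlinarith [abs_nonneg Δ]
  have hΔ0' : 0 < |Δ'| := by nlinarith [abs_nonneg Δ']
  have hη : 0 ≤ η := by nlinarith [abs_nonneg (Δ' - Δ)]
  have i1 : |Δ|⁻¹ ≤ B := by rw [inv_le_iff_one_le_mul₀ hΔ0]; exact hd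
  have i2 : |Δ'|⁻¹ ≤ B := by rw [inv_le_iff_one_le_mul₀ hΔ0']; exact hd'
  have e : N / Δ - N' / Δ' = (N - N') * Δ⁻¹ + N' * (Δ' - Δ) * Δ⁻¹ * Δ'⁻¹ := by
    field_simp [abs_pos.1 hΔ0, abs_pos.1 hΔ0']
    ring
  rw [e]
  refine (abs_add_le _ _).trans ?_
  simp only [abs_mul, abs_inv]
  have a1 : |N - N'| * |Δ|⁻¹ ≤ 24 * (B * B) * η * B := by gcongr
  have a2 : |N'| * |Δ' - Δ| * |Δ|⁻¹ * |Δ'|⁻¹ ≤ 8 * (B * B * B) * (4 * B * η) * B * B := by gcongr
  have p3 : B ^ 3 * η ≤ B ^ 6 * η :=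
    mul_le_mul_of_nonneg_right (pow_le_pow_right₀ hB (by norm_num)) hη
  have e1 : 24 * (B * B) * η * B = 24 * (B ^ 3 * η) := by ring
  have e2 : 8 * (B * B * B) * (4 * B * η) * B * B = 32 * (B ^ 6 * η) := by ring
  have : 0 ≤ B ^ 6 * η := by positivity
  linarith

theorem quadForm_diff {B η g1 g2 g3 a1 a2 b1 b2 c1 c2 g1' g2' g3' a1' a2' b1' b2' c1' c2' : ℝ}
    (hB : 1 ≤ B) (hg1 : Near B η g1 g1') (hg2 : Near B η g2 g2') (hg3 : Near B η g3 g3')
    (ha1 : Near B η a1 a1') (ha2 : Near B η a2 a2') (hb1 : Near B η b1 b1')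
    (hb2 : Near B η b2 b2') (hc1 : Near B η c1 c1') (hc2 : Near B η c2 c2')
    (hd : 1 ≤ B * |g1 * g3 - g2 * g2|) (hd' : 1 ≤ B * |g1' * g3' - g2' * g2'|) :
    |quadForm g1 g2 g3 a1 a2 b1 b2 c1 c2 - quadForm g1' g2' g3' a1' a2' b1' b2' c1' c2'| ≤
      60 * B ^ 6 * η := by
  have u := bilNum_diff hg1 hg2 hg3 ha1 ha2 hc1 hc2
  have w := bilNum_diff hg1 hg2 hg3 hb1 hb2 hb1 hb2
  simp only [quadForm_eq]
  refine div_diff hB ?_ ?_ ?_ hd hd'
  · have u' := abs_le.1 u.1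
    have w' := abs_le.1 w.1
    rw [abs_le]; constructor <;> linarith
  · have u' := abs_le.1 u.2
    have w' := abs_le.1 w.2
    rw [abs_le]; constructor <;> linarith
  · have pd : ∀ {p q p' q' : ℝ}, Near B η p p' → Near B η q q' →
        |p' * q' - p * q| ≤ 2 * B * η := fun {p q p' q'} hp hq => by
      have e : p' * q' - p * q = p' * (q' - q) + (p' - p) * q := by ring
      rw [e]
      refine (abs_add_le _ _).trans ?_
      rw [abs_mul, abs_mul, abs_sub_comm q' q, abs_sub_comm p' p]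
      have x1 : |p'| * |q - q'| ≤ B * η := mul_le_mul hp.2.1 hq.2.2 (abs_nonneg _) (by linarith)
      have x2 : |p - p'| * |q| ≤ η * B :=
        mul_le_mul hp.2.2 hq.1 (abs_nonneg _) ((abs_nonneg _).trans hp.2.2)
      linarith
    have x1 := abs_le.1 (pd hg1 hg3)
    have x2 := abs_le.1 (pd hg2 hg2)
    rw [abs_le]; constructor <;> linarith

theorem Near.mono {B η p p' : ℝ} (h : Near B η p p') (hB : 0 ≤ B) :
    Near (2 * B) (2 * η) p p' :=
  ⟨h.1.trans (by linarith), h.2.1.trans (by linarith),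
    h.2.2.trans (by linarith [(abs_nonneg _).trans h.2.2])⟩

theorem Near.half {B η p p' : ℝ} (h : Near B η p p') : Near (2 * B) (2 * η) (p / 2) (p' / 2) := by
  obtain ⟨x1, x2, x3⟩ := h
  rw [abs_le] at x1 x2 x3
  simp only [Near, abs_le]
  refine ⟨⟨?_, ?_⟩, ⟨?_, ?_⟩, ?_, ?_⟩ <;> linarith

theorem Near.sub_half {B η p p' q q' : ℝ} (hp : Near B η p p') (hq : Near B η q q') :
    Near (2 * B) (2 * η) (p - q / 2) (p' - q' / 2) := by
  obtain ⟨x1, x2, x3⟩ := hp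
  obtain ⟨y1, y2, y3⟩ := hq
  rw [abs_le] at x1 x2 x3 y1 y2 y3
  simp only [Near, abs_le]
  refine ⟨⟨?_, ?_⟩, ⟨?_, ?_⟩, ?_, ?_⟩ <;> linarith

/-- **Stability of the curvature.** Metrics that agree up to `η` with their first two derivatives,
all at most `B` in the directions `u, v`, with determinants at least `1 / B`. -/
theorem gnum_diff (u v : E) (g g' : Fin 3 → E → ℝ) (x : E) {B η : ℝ} (hB : 1 ≤ B)
    (h0 : ∀ i, Near B η (g i x) (g' i x))
    (h1 : ∀ i, ∀ a ∈ [u, v], Near B η (D a (g i) x) (D a (g' i) x))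
    (h2 : ∀ i, ∀ a ∈ [u, v], ∀ b ∈ [u, v], |D a (D b (g i)) x - D a (D b (g' i)) x| ≤ η)
    (hd : 1 ≤ B * |g 0 x * g 2 x - g 1 x * g 1 x|)
    (hd' : 1 ≤ B * |g' 0 x * g' 2 x - g' 1 x * g' 1 x|) :
    |gnum u v (g 0) (g 1) (g 2) x - gnum u v (g' 0) (g' 1) (g' 2) x| ≤ 8000 * B ^ 6 * η := by
  have hu : u ∈ [u, v] := by simp
  have hv : v ∈ [u, v] := by simp
  have hη : 0 ≤ η := (abs_nonneg _).trans (h0 0).2.2
  have hB0 : 0 ≤ B := by linarith
  have hq := abs_le.1 (quadForm_diff (B := 2 * B) (η := 2 * η) (by linarith)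
    ((h0 0).mono hB0) ((h0 1).mono hB0) ((h0 2).mono hB0)
    (h1 0 u hu).half ((h1 1 u hu).sub_half (h1 0 v hv)) (h1 0 v hv).half (h1 2 u hu).half
    ((h1 1 v hv).sub_half (h1 2 u hu)) (h1 2 v hv).half
    (hd.trans (by gcongr; linarith)) (hd'.trans (by gcongr; linarith)))
  have e1 := abs_le.1 (h2 1 u hu v hv)
  have e2 := abs_le.1 (h2 0 v hv v hv)
  have e3 := abs_le.1 (h2 2 u hu u hu)
  have hB6 : 60 * (2 * B) ^ 6 * (2 * η) = 7680 * (B ^ 6 * η) := by ring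
  rw [hB6] at hq
  have hη6 : η ≤ B ^ 6 * η := le_mul_of_one_le_left hη (one_le_pow₀ hB)
  unfold gnum
  rw [abs_le]
  constructor <;> linarith [hq.1, hq.2]

theorem coord_pt (a : R2) : a = a 0 • pt 1 0 + a 1 • pt 0 1 := by
  ext i
  fin_cases i <;> simp [pt]

theorem sff_comb {X : R2 → V4} {z : R2} (hX : ContDiffAt ℝ 2 X z) (a b : R2) :
    sff X z a b = (a 0 * b 0) • sff X z (pt 1 0) (pt 1 0) +
      (a 0 * b 1 + a 1 * b 0) • sff X z (pt 1 0) (pt 0 1) + (a 1 * b 1) • sff X z (pt 0 1) (pt 0 1) := by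
  have hb : b = b 0 • pt 1 0 + b 1 • pt 0 1 := coord_pt b
  have ha : a = a 0 • pt 1 0 + a 1 • pt 0 1 := coord_pt a
  conv_lhs => rw [sff, hb, D2_comb hX, ha, D_comb, D_comb, D_symm hX (pt 0 1) (pt 1 0)]
  simp only [sff, perp2_add, perp2_smul]
  module

/-- The second form is bounded by `sffSq`. -/
theorem sff_le {X : R2 → V4} {z : R2} (hX : ContDiffAt ℝ 2 X z) (a b : R2) :
    len (sff X z a b) ≤ Real.sqrt ((a 0 ^ 2 + a 1 ^ 2) * (b 0 ^ 2 + b 1 ^ 2) * sffSq X z) := by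
  rw [sff_comb hX]
  refine ((len_add_le _ _).trans (add_le_add (len_add_le _ _) le_rfl)).trans ?_
  simp only [len_smul]
  refine Real.le_sqrt_of_sq_le ?_
  simp only [sffSq, ← len_sq]
  generalize len (sff X z (pt 1 0) (pt 1 0)) = p
  generalize len (sff X z (pt 1 0) (pt 0 1)) = q
  generalize len (sff X z (pt 0 1) (pt 0 1)) = r
  simp only [abs_mul]
  obtain ⟨x, hx⟩ : ∃ x, x = |a 0| := ⟨_, rfl⟩
  obtain ⟨y, hy⟩ : ∃ y, y = |a 1| := ⟨_, rfl⟩
  obtain ⟨x', hx'⟩ : ∃ x, x = |b 0| := ⟨_, rfl⟩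
  obtain ⟨y', hy'⟩ : ∃ y, y = |b 1| := ⟨_, rfl⟩
  rw [← sq_abs (a 0), ← sq_abs (a 1), ← sq_abs (b 0), ← sq_abs (b 1), ← hx, ← hy, ← hx', ← hy']
  have hab : |a 0 * b 1 + a 1 * b 0| ≤ x * y' + y * x' := by
    rw [hx, hy, hx', hy', ← abs_mul, ← abs_mul]; exact abs_add_le _ _
  obtain ⟨w, hw⟩ : ∃ w, w = |a 0 * b 1 + a 1 * b 0| := ⟨_, rfl⟩
  rw [← hw] at hab ⊢
  have hw0 : 0 ≤ w := hw ▸ abs_nonneg _
  have hsq : w ^ 2 ≤ (x * y' + y * x') ^ 2 := pow_le_pow_left₀ hw0 hab 2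
  have cs := Finset.sum_mul_sq_le_sq_mul_sq Finset.univ ![x * x', w / Real.sqrt 2, y * y']
    ![p, Real.sqrt 2 * q, r]
  have e : w / Real.sqrt 2 * (Real.sqrt 2 * q) = w * q := by field_simp
  simp [Fin.sum_univ_three, e, div_pow, mul_pow] at cs
  have h0 : 0 ≤ p ^ 2 + 2 * q ^ 2 + r ^ 2 := by positivity
  have hm : x ^ 2 * x' ^ 2 + w ^ 2 / 2 + y ^ 2 * y' ^ 2 ≤ (x ^ 2 + y ^ 2) * (x' ^ 2 + y' ^ 2) := by
    nlinarith [sq_nonneg (x * y' - y * x')]
  nlinarith [mul_le_mul_of_nonneg_right hm h0]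

/-- Any two independent directions give the second form of the chart. -/
theorem nn_eq_sff {X : R2 → V4} {z : R2} (hg : gram2 (D (pt 1 0) X z) (D (pt 0 1) X z) ≠ 0)
    {u v : R2} (hd : u 0 * v 1 - u 1 * v 0 ≠ 0) (a b : R2) : nn u v X a b z = sff X z a b := by
  have hu : u = u 0 • pt 1 0 + u 1 • pt 0 1 := coord_pt u
  have hv : v = v 0 • pt 1 0 + v 1 • pt 0 1 := coord_pt v
  rw [nn, sff, hu, hv, D_comb, D_comb, perp2_basis hg]
  simpa using hd

end Vale.Agent.P205.Legal
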