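import Vale.Agent.P205.Legal.Vec
import Vale.Agent.P205.Free.Turn

/-!
The bend of the common direction through the levels of a stage: it survives small changes, a free
wave of any amplitude makes it at least `q / 3 + k μ ρ / 10`, and the bend of the kernel after a
legal wave does not depend on the fast variable.
-/

noncomputable section

open Real
open scoped ContDiff

namespace Vale.Agent.P205.Legal

open Wave (V4 ip gram2 ip_comm)

/-- The cost of replacing the plane `p', q'` and the vector `w'`. -/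
def gap (p q w p' q' w' : V4) : ℝ :=
  len (w - w') +
    len w' / Real.sqrt (gram2 p' q') * (len q' * len (p' - p) + len p' * len (q' - q))

/-- **Small changes keep the bend.** -/
theorem bend_close {p q p' q' : V4} (h : gram2 p q ≠ 0) (h' : 0 < gram2 p' q') (w w' : V4) :
    len (perp2 p q w) ≤ len (perp2 p' q' w') + gap p q w p' q' w' := by
  have e : perp2 p q w = perp2 p q (w - w') + perp2 p q w' := by
    rw [← perp2_add, sub_add_cancel]
  rw [e]
  refine (len_add_le _ _).trans ?_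
  have h1 := len_perp2_le h (w - w')
  have h2 := perp2_plane h h' w'
  unfold gap
  linarith

theorem perp2_self {p q : V4} (h : gram2 p q ≠ 0) (α β : ℝ) :
    perp2 p q (α • p + β • q) = 0 := by
  funext i
  simp [perp2, Wave.lift2, ip_comm q p]
  field_simp
  unfold gram2
  ring

open Free in
/-- The second normal component of the turned velocity is at most the twist. -/
theorem sh2_sq_le {c : ℝ × ℝ} (s : ℝ) : sh2 c s ^ 2 ≤ c.2 ^ 2 := by
  have hd := den_pos c s
  have hr := crv_sq c s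
  have hsin : Real.sin (c.2 * Real.cos s) ^ 2 ≤ c.2 ^ 2 := by
    refine sq_le_sq.2 (Real.abs_sin_le_abs.trans ?_)
    rw [abs_mul]
    exact mul_le_of_le_one_right (abs_nonneg _) (Real.abs_cos_le_one s)
  rw [sh2, div_pow, div_le_iff₀ (by positivity), mul_pow]
  have e : crv2 c s ^ 2 = (c.1 * Real.sin s) ^ 2 * Real.sin (c.2 * Real.cos s) ^ 2 := by
    simp only [crv2]; ring
  have hh : 2 ^ 2 * (c.1 * Real.sin s) ^ 2 ≤ den c s ^ 2 := by
    rw [den, hr]
    nlinarith [sq_nonneg (1 - (c.1 * Real.sin s) ^ 2)]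
  rw [e, ← mul_assoc, mul_comm (c.2 ^ 2)]
  exact mul_le_mul hh hsin (sq_nonneg _) (sq_nonneg _)

variable {E : Type} [NormedAddCommGroup E] [NormedSpace ℝ E] [FiniteDimensional ℝ E]
  {P : Free.Prof E}

omit [FiniteDimensional ℝ E] in
/-- The change of the velocity under a free wave is at most twice the amplitude. -/
theorem free_jump (h : P.OK) {x : E} (hx : x ∈ P.base.Ω) {μ ρ : ℝ}
    (hc : P.c x = Free.Prof.shapeOf μ (P.aP x) ρ) (s : ℝ) :
    len (P.data.T x s - P.pvec x) ≤ 2 * |ρ| := by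
  obtain ⟨ha, ht, -, -, -, hp⟩ := Free.Prof.frame h hx
  obtain ⟨-, uu, -, -, ut⟩ := Free.Prof.ip_unit h hx s
  have hl := Free.Prof.m0_shapeOf h hx hc
  obtain ⟨a, haa⟩ : ∃ a, a = P.aP x := ⟨_, rfl⟩
  obtain ⟨l, hll⟩ : ∃ l, l = Real.sqrt (a ^ 2 + ρ ^ 2) := ⟨_, rfl⟩
  rw [← haa] at ha hc
  rw [← haa, ← hll] at hl
  have hl2 : l ^ 2 = a ^ 2 + ρ ^ 2 := by rw [hll]; exact Real.sq_sqrt (by positivity)
  have hal : a ≤ l := by rw [hll]; exact Real.le_sqrt_of_sq_le (le_add_of_nonneg_right (sq_nonneg ρ))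
  have hl0 : 0 < l := ha.trans_le hal
  obtain ⟨r, hr⟩ : ∃ r, r = ((P.c x).1 * Real.sin s) ^ 2 := ⟨_, rfl⟩
  have hr0 : 0 ≤ r := hr ▸ sq_nonneg _
  have hrs : r ≤ ρ ^ 2 * (3 * l + a) / (l + a) ^ 3 := by
    rw [hr, mul_pow]
    refine (mul_le_of_le_one_right (sq_nonneg _) (Real.sin_sq_le_one s)).trans (le_of_eq ?_)
    rw [hc]
    show (ρ * Real.sqrt (3 * Real.sqrt (a ^ 2 + ρ ^ 2) + a) /
      Real.sqrt ((Real.sqrt (a ^ 2 + ρ ^ 2) + a) ^ 3)) ^ 2 = _
    rw [← hll, div_pow, mul_pow, Real.sq_sqrt (by positivity), Real.sq_sqrt (by positivity)]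
  have e : ip (P.data.T x s - P.pvec x) (P.data.T x s - P.pvec x) =
      (l - a) ^ 2 + 2 * (a * l) * (1 - Free.sh0 (P.c x) s) := by
    have ut' : ip (P.tauP x) (P.unit x s) = Free.sh0 (P.c x) s := (ip_comm _ _).trans ut
    have hp' : P.pvec x = a • P.tauP x := by rw [haa, hp]
    simp [Free.Prof.data, hl, hp', uu, ut, ut', ht]
    ring
  have h0 : 1 - Free.sh0 (P.c x) s ≤ 2 * r := by
    rw [Free.sh0, Free.den, Free.crv_sq, ← hr,
      show (1 : ℝ) - (1 - r) / (1 + r) = 2 * r / (1 + r) by field_simp; ring]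
    exact div_le_self (by positivity) (by linarith)
  have h3 : a * l * (3 * l + a) ≤ 3 / 4 * (l + a) ^ 3 := by
    nlinarith [mul_nonneg (sq_nonneg (l - a)) (by linarith : (0 : ℝ) ≤ 3 * l + a),
      mul_nonneg (sq_nonneg (l + a)) ha.le]
  have h4 : a * l * r ≤ 3 / 4 * ρ ^ 2 := by
    refine (mul_le_mul_of_nonneg_left hrs (by positivity)).trans ?_
    rw [mul_div, div_le_iff₀ (by positivity)]
    calc a * l * (ρ ^ 2 * (3 * l + a)) = ρ ^ 2 * (a * l * (3 * l + a)) := by ring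
      _ ≤ ρ ^ 2 * (3 / 4 * (l + a) ^ 3) := mul_le_mul_of_nonneg_left h3 (sq_nonneg ρ)
      _ = _ := by ring
  have h5 : (l - a) ^ 2 ≤ ρ ^ 2 := by nlinarith
  rw [len, show 2 * |ρ| = Real.sqrt (4 * ρ ^ 2) by
    rw [show 4 * ρ ^ 2 = (2 * ρ) ^ 2 by ring, Real.sqrt_sq_eq_abs, abs_mul, abs_two]]
  refine Real.sqrt_le_sqrt ?_
  rw [e]
  have := mul_le_mul_of_nonneg_left h0 (by positivity : 0 ≤ 2 * (a * l))
  nlinarith

omit [FiniteDimensional ℝ E] in
/-- **After a free wave**, before errors: if the normal part of `w` is `q` times the second normal,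
the normal part of `w + k ∂ₛT` is at least `q / 3 + k μ ρ / 10`, up to the tangential part of `w`
times twice the amplitude. -/
theorem free_bend (h : P.OK) {x : E} (hx : x ∈ P.base.Ω) {μ ρ : ℝ} (hμ : 0 ≤ μ) (hμ2 : μ ≤ 1 / 2)
    (hρ : 0 ≤ ρ) (hc : P.c x = Free.Prof.shapeOf μ (P.aP x) ρ) {q k : ℝ} (hq : 0 ≤ q) (hk : 0 ≤ k)
    {w : V4} {α β : ℝ} (hw : w = α • P.base.Ze x + β • P.pvec x + q • P.L2 x) (s : ℝ) :
    q / 3 + k * (μ * ρ) / 10 ≤
      len (perp2 (P.base.Ze x) (P.data.T x s) (w + k • deriv (P.data.T x) s)) + 2 * |β| * ρ := by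
  obtain ⟨hze, uu, -, u2, -⟩ := Free.Prof.ip_unit h hx s
  obtain ⟨hd1, hd2⟩ := Free.Prof.turn_normal h hx s
  have hl0 : 0 < P.len x := div_pos (Free.Prof.frame h hx).1 (h.m0_pos x hx)
  have hzz := h.zz_pos x hx
  have hT : P.data.T x s = P.len x • P.unit x s := rfl
  have hg : 0 < gram2 (P.base.Ze x) (P.data.T x s) := by
    simp [gram2, hT, hze, uu]; positivity
  obtain ⟨m, hm⟩ : ∃ m, m = perp2 (P.base.Ze x) (P.data.T x s)
      (q • P.L2 x + k • deriv (P.data.T x) s) := ⟨_, rfl⟩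
  have e1 : perp2 (P.base.Ze x) (P.data.T x s) (w + k • deriv (P.data.T x) s) =
      m + β • perp2 (P.base.Ze x) (P.data.T x s) (P.pvec x - P.data.T x s) := by
    have z1 : perp2 (P.base.Ze x) (P.data.T x s) (α • P.base.Ze x + β • P.data.T x s) = 0 :=
      perp2_self hg.ne' α β
    rw [hm, ← perp2_smul, ← perp2_add, ← sub_eq_zero, ← perp2_sub, ← z1]
    congr 1
    rw [hw]
    module
  have hlow : q / 3 + k * (μ * ρ) / 10 ≤ len m := by
    have eT : ip (P.unit x s) (deriv (P.data.T x) s) = 0 := by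
      have := hd2
      rw [show P.data.T x s = P.len x • P.unit x s from hT, Wave.ip_smul_left] at this
      exact (mul_eq_zero.1 this).resolve_left hl0.ne'
    have em : ip m m = ip (q • P.L2 x + k • deriv (P.data.T x) s)
        (q • P.L2 x + k • deriv (P.data.T x) s) - q ^ 2 * Free.sh2 (P.c x) s ^ 2 := by
      rw [hm, ip_perp2_perp hg.ne']
      simp [gram2, hT, hze, uu, u2, eT, hd1, h.ortE2 x hx]
      field_simp
    have ht := Free.Prof.turn_ge h hx hμ (hμ2.trans (by norm_num)) hρ hc hq hk s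
    have hs : Free.sh2 (P.c x) s ^ 2 ≤ μ ^ 2 := by
      have := sh2_sq_le (c := P.c x) s
      rwa [hc] at this ⊢
    have hB : 0 ≤ k * (μ * ρ / 3) := by positivity
    refine (abs_le_of_sq_le_sq' ?_ (len_nonneg m)).2
    rw [len_sq, em]
    have hμ4 : μ ^ 2 ≤ 1 / 4 := by nlinarith
    have a1 := mul_le_mul_of_nonneg_left (hs.trans hμ4) (sq_nonneg q)
    have a2 : (1 / 2) * (q ^ 2 + (k * (μ * ρ / 3)) ^ 2) ≤
        (1 - μ) * (q ^ 2 + (k * (μ * ρ / 3)) ^ 2) :=
      mul_le_mul_of_nonneg_right (by linarith) (by positivity)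
    nlinarith [sq_nonneg (q / 3 - k * (μ * ρ) / 10)]
  refine hlow.trans ?_
  have h1 := len_sub_le (perp2 (P.base.Ze x) (P.data.T x s) (w + k • deriv (P.data.T x) s))
    (β • perp2 (P.base.Ze x) (P.data.T x s) (P.pvec x - P.data.T x s))
  have e3 : perp2 (P.base.Ze x) (P.data.T x s) (w + k • deriv (P.data.T x) s) -
      β • perp2 (P.base.Ze x) (P.data.T x s) (P.pvec x - P.data.T x s) = m := by
    rw [e1, add_sub_cancel_right]
  rw [e3, len_smul] at h1
  refine h1.trans (add_le_add le_rfl ?_)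
  calc |β| * len (perp2 (P.base.Ze x) (P.data.T x s) (P.pvec x - P.data.T x s))
      ≤ |β| * (2 * ρ) := by
        refine mul_le_mul_of_nonneg_left ?_ (abs_nonneg β)
        refine (len_perp2_le hg.ne' _).trans ?_
        rw [← neg_sub, len_neg]
        exact (free_jump h hx hc s).trans_eq (by rw [abs_of_nonneg hρ])
    _ = _ := by ring

omit [FiniteDimensional ℝ E] in
/-- **After a free wave, with errors**: the bend of the new map. -/
theorem free_bend_close (h : P.OK) {x : E} (hx : x ∈ P.base.Ω) {μ ρ : ℝ} (hμ : 0 ≤ μ)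
    (hμ2 : μ ≤ 1 / 2) (hρ : 0 ≤ ρ) (hc : P.c x = Free.Prof.shapeOf μ (P.aP x) ρ) {q k : ℝ}
    (hq : 0 ≤ q) (hk : 0 ≤ k) {w : V4} {α β : ℝ}
    (hw : w = α • P.base.Ze x + β • P.pvec x + q • P.L2 x) (s : ℝ) {p' q' w' : V4}
    (h' : 0 < gram2 p' q') :
    q / 3 + k * (μ * ρ) / 10 ≤ len (perp2 p' q' w') + 2 * |β| * ρ +
      gap (P.base.Ze x) (P.data.T x s) (w + k • deriv (P.data.T x) s) p' q' w' := by
  obtain ⟨hze, uu, -⟩ := Free.Prof.ip_unit h hx s
  have hl0 : 0 < P.len x := div_pos (Free.Prof.frame h hx).1 (h.m0_pos x hx)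
  have hg : 0 < gram2 (P.base.Ze x) (P.data.T x s) := by
    have hzz := h.zz_pos x hx
    simp [gram2, Free.Prof.data, hze, uu]; positivity
  have h1 := free_bend h hx hμ hμ2 hρ hc hq hk hw s
  have h2 := bend_close hg.ne' h' (w + k • deriv (P.data.T x) s) w'
  linarith

variable {W : Wave.Data E}

/-- **After a legal wave** the squared bend of its kernel is independent of the fast variable. -/
theorem legal_bend (hW : W.Good) {x : E} (hx : x ∈ W.Ω) (s : ℝ) {β : ℝ}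
    (hβ : β = (ip (W.Zv x) (W.Zee x) * ip (W.Ze x) (W.Ze x) -
      ip (W.Zv x) (W.Ze x) * ip (W.Ze x) (W.Zee x)) / gram2 (W.Ze x) (W.Zee x)) :
    ip (perp2 (W.Ze x) (W.vel x s) (W.Zee x)) (perp2 (W.Ze x) (W.vel x s) (W.Zee x)) *
        (β ^ 2 * gram2 (W.Ze x) (W.Zee x) + W.ell x ^ 2 * ip (W.Ze x) (W.Ze x)) =
      W.ell x ^ 2 * gram2 (W.Ze x) (W.Zee x) := by
  obtain ⟨t1, t2, n1, n2, tt, nu, tn, -⟩ := Wave.Data.frame hW hx
  have hG := hW.gram_pos x hx
  have hl := Wave.Data.ell_pos hW hx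
  obtain ⟨α, hb⟩ : ∃ α : ℝ, W.bb x = α • W.Ze x + β • W.Zee x := ⟨_, by rw [hβ]; rfl⟩
  obtain ⟨r, hr⟩ : ∃ r, r = W.cs x s • W.tau x + W.sn x s • W.nu x := ⟨_, rfl⟩
  have hcs : W.cs x s ^ 2 + W.sn x s ^ 2 = 1 := by
    have : 0 < 1 + (W.amp x * Real.sin s) ^ 2 := by positivity
    unfold Wave.Data.cs Wave.Data.sn
    field_simp
    ring
  have r1 : ip r r = 1 := by
    rw [hr]; simp [tt, nu, tn, ip_comm (W.nu x) (W.tau x)]; linear_combination hcs
  have r2 : ip (W.Ze x) r = 0 := by rw [hr]; simp [t1, n1]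
  have r3 : ip (W.Zee x) r = 0 := by rw [hr]; simp [t2, n2]
  have eg : gram2 (W.Ze x) (W.vel x s) =
      β ^ 2 * gram2 (W.Ze x) (W.Zee x) + W.ell x ^ 2 * ip (W.Ze x) (W.Ze x) := by
    rw [Wave.Data.vel_eq hW hx, hb, ← hr]
    simp [gram2, r1, r2, r3, ip_comm r (W.Ze x), ip_comm r (W.Zee x),
      ip_comm (W.Zee x) (W.Ze x)]
    ring
  have hpp : 0 < ip (W.Ze x) (W.Ze x) := by
    rcases (ip_self_nonneg (W.Ze x)).eq_or_lt with h | h
    · exfalso
      unfold gram2 at hG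
      rw [← h] at hG
      nlinarith [sq_nonneg (ip (W.Ze x) (W.Zee x))]
    · exact h
  have hne : gram2 (W.Ze x) (W.vel x s) ≠ 0 := by rw [eg]; positivity
  rw [← eg, perp2_sq hne, Wave.Data.vel_eq hW hx, hb, ← hr]
  simp [gram3, gram2, r1, r2, r3, ip_comm r (W.Ze x), ip_comm r (W.Zee x),
    ip_comm (W.Zee x) (W.Ze x)]
  ring

end Vale.Agent.P205.Legal
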