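import Vale.Agent.P205.Chart

/-!
Normal parts with respect to a plane in four variables: algebra, changes of the plane and the
growth of the normal part of `Z_ee` under one wave.
-/

noncomputable section

open Finset Real

namespace Vale.Agent.P205.Legal

open Wave (V4 ip gram2 lift2 ip_comm)

/-- The length of a vector. -/
def len (w : V4) : ℝ := Real.sqrt (ip w w)

theorem ip_self_nonneg (w : V4) : 0 ≤ ip w w := sum_nonneg fun i _ => mul_self_nonneg (w i)

theorem len_nonneg (w : V4) : 0 ≤ len w := Real.sqrt_nonneg _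

theorem len_sq (w : V4) : len w ^ 2 = ip w w := Real.sq_sqrt (ip_self_nonneg w)

theorem abs_ip_le (a b : V4) : |ip a b| ≤ len a * len b := by
  have h := sum_mul_sq_le_sq_mul_sq univ a b
  refine abs_le_of_sq_le_sq ?_ (mul_nonneg (len_nonneg a) (len_nonneg b))
  rw [mul_pow, len_sq, len_sq]
  simpa [ip, pow_two] using h

theorem len_add_le (a b : V4) : len (a + b) ≤ len a + len b := by
  refine (abs_le_of_sq_le_sq' ?_ (add_nonneg (len_nonneg a) (len_nonneg b))).2
  rw [add_sq, len_sq, len_sq, len_sq]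
  have := (abs_le.1 (abs_ip_le a b)).2
  simp [ip_comm b a]
  linarith

theorem len_smul (r : ℝ) (a : V4) : len (r • a) = |r| * len a := by
  rw [len, Wave.ip_smul_left, Wave.ip_smul_right, ← mul_assoc, Real.sqrt_mul (mul_self_nonneg r),
    Real.sqrt_mul_self_eq_abs, len]

theorem len_neg (a : V4) : len (-a) = len a := by simpa using len_smul (-1) a

theorem len_sub_le (a b : V4) : len (a - b) ≤ len a + len b := by
  simpa [sub_eq_add_neg, len_neg] using len_add_le a (-b)

theorem len_mono {a b : V4} (h : ip a a ≤ ip b b) : len a ≤ len b := Real.sqrt_le_sqrt h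

/-- The component on a unit vector is a lower bound. -/
theorem abs_ip_unit_le {m : V4} (hm : ip m m = 1) (w : V4) : |ip w m| ≤ len w := by
  have h : len m = 1 := by rw [len, hm, Real.sqrt_one]
  simpa [h] using abs_ip_le w m

theorem perp2_orth {p q : V4} (h : gram2 p q ≠ 0) (w : V4) :
    ip p (perp2 p q w) = 0 ∧ ip q (perp2 p q w) = 0 := by
  obtain ⟨h1, h2⟩ := Wave.ip_lift2 h (ip p w) (ip q w)
  simp [perp2, h1, h2]

theorem ip_perp2 {p q m : V4} (hp : ip m p = 0) (hq : ip m q = 0) (w : V4) :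
    ip (perp2 p q w) m = ip w m := by
  have h := Wave.ip_lift2_perp hp hq (ip p w) (ip q w)
  simp [perp2, ip_comm _ m, h]

theorem perp2_add (p q v w : V4) : perp2 p q (v + w) = perp2 p q v + perp2 p q w := by
  funext i
  simp [perp2, lift2]
  ring

theorem perp2_smul (p q w : V4) (r : ℝ) : perp2 p q (r • w) = r • perp2 p q w := by
  funext i
  simp [perp2, lift2]
  ring

theorem perp2_sub (p q v w : V4) : perp2 p q (v - w) = perp2 p q v - perp2 p q w := by
  funext i
  simp [perp2, lift2]
  ring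

theorem gram2_comb (p q : V4) (α β γ δ : ℝ) :
    gram2 (α • p + β • q) (γ • p + δ • q) = (α * δ - β * γ) ^ 2 * gram2 p q := by
  simp [gram2, ip_comm q p]
  ring

/-- The normal part only depends on the plane. -/
theorem perp2_basis {p q : V4} (h : gram2 p q ≠ 0) {α β γ δ : ℝ} (hd : α * δ - β * γ ≠ 0) (w : V4) :
    perp2 (α • p + β • q) (γ • p + δ • q) w = perp2 p q w := by
  have hne : (α * δ - β * γ) ^ 2 * gram2 p q ≠ 0 := mul_ne_zero (pow_ne_zero _ hd) h
  funext i
  simp [perp2, lift2, gram2_comb, ip_comm q p]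
  field_simp
  ring

/-- Distance to the plane. -/
theorem perp2_dist {p q : V4} (h : gram2 p q ≠ 0) (w : V4) (α β : ℝ) :
    len (perp2 p q w) ≤ len (w - (α • p + β • q)) := by
  obtain ⟨h1, h2⟩ := perp2_orth h w
  obtain ⟨u, v, e⟩ : ∃ u v : ℝ,
      w - (α • p + β • q) = perp2 p q w + (u • p + v • q) :=
    ⟨(ip p w * ip q q - ip q w * ip p q) / gram2 p q - α,
      (ip q w * ip p p - ip p w * ip p q) / gram2 p q - β, by
        funext i; simp [perp2, lift2]; ring⟩
  have h1' : ip (perp2 p q w) p = 0 := by rw [ip_comm]; exact h1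
  have h2' : ip (perp2 p q w) q = 0 := by rw [ip_comm]; exact h2
  refine len_mono ?_
  rw [e]
  have := ip_self_nonneg (u • p + v • q)
  simp [h1, h2, h1', h2'] at this ⊢
  linarith

theorem len_perp2_le {p q : V4} (h : gram2 p q ≠ 0) (w : V4) : len (perp2 p q w) ≤ len w := by
  simpa using perp2_dist h w 0 0

/-- A change of the plane changes the normal part by at most the change times the coefficients. -/
theorem perp2_plane {p q p' q' : V4} (h : gram2 p q ≠ 0) (h' : 0 < gram2 p' q') (w : V4) :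
    len (perp2 p q w) ≤ len (perp2 p' q' w) +
      len w / Real.sqrt (gram2 p' q') * (len q' * len (p' - p) + len p' * len (q' - q)) := by
  obtain ⟨α, hα⟩ : ∃ α, α = (ip p' w * ip q' q' - ip q' w * ip p' q') / gram2 p' q' := ⟨_, rfl⟩
  obtain ⟨β, hβ⟩ : ∃ β, β = (ip q' w * ip p' p' - ip p' w * ip p' q') / gram2 p' q' := ⟨_, rfl⟩
  have hl : perp2 p' q' w = w - (α • p' + β • q') := by rw [hα, hβ]; rfl
  have e : w - (α • p + β • q) = perp2 p' q' w + (α • (p' - p) + β • (q' - q)) := by
    rw [hl]; funext i; simp; ring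
  have hn : α ^ 2 * gram2 p' q' ≤ ip q' q' * ip w w ∧ β ^ 2 * gram2 p' q' ≤ ip p' p' * ip w w := by
    obtain ⟨o1, o2⟩ := perp2_orth h'.ne' w
    have o1' : ip (perp2 p' q' w) p' = 0 := by rw [ip_comm]; exact o1
    have o2' : ip (perp2 p' q' w) q' = 0 := by rw [ip_comm]; exact o2
    have hw : w = perp2 p' q' w + (α • p' + β • q') := by rw [hl, sub_add_cancel]
    have hin : ip (α • p' + β • q') (α • p' + β • q') ≤ ip w w := by
      conv_rhs => rw [hw]
      have := ip_self_nonneg (perp2 p' q' w)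
      simp [o1, o2, o1', o2']
      linarith
    have hq := ip_self_nonneg q'
    have hp := ip_self_nonneg p'
    constructor
    · refine le_trans ?_ (mul_le_mul_of_nonneg_left hin hq)
      simp [gram2, ip_comm q' p']
      nlinarith [sq_nonneg (α * ip p' q' + β * ip q' q')]
    · refine le_trans ?_ (mul_le_mul_of_nonneg_left hin hp)
      simp [gram2, ip_comm q' p']
      nlinarith [sq_nonneg (α * ip p' p' + β * ip p' q')]
  have hs := Real.sqrt_pos.2 h'
  have coef : ∀ γ : ℝ, ∀ r : V4, γ ^ 2 * gram2 p' q' ≤ ip r r * ip w w →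
      |γ| ≤ len w / Real.sqrt (gram2 p' q') * len r := fun γ r hγ => by
    rw [div_mul_eq_mul_div, le_div_iff₀ hs]
    refine (abs_le_of_sq_le_sq' ?_ (mul_nonneg (len_nonneg w) (len_nonneg r))).2
    rw [mul_pow, mul_pow, sq_abs, Real.sq_sqrt h'.le, len_sq, len_sq]
    linarith
  refine (perp2_dist h w α β).trans ?_
  rw [e]
  refine (len_add_le _ _).trans (add_le_add le_rfl ((len_add_le _ _).trans ?_))
  rw [len_smul, len_smul, mul_add, ← mul_assoc, ← mul_assoc]
  exact add_le_add (mul_le_mul_of_nonneg_right (coef α q' hn.1) (len_nonneg _))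
    (mul_le_mul_of_nonneg_right (coef β p' hn.2) (len_nonneg _))

/-- Scalar products of normal parts. -/
theorem ip_perp2_perp {p q : V4} (h : gram2 p q ≠ 0) (a b : V4) :
    ip (perp2 p q a) (perp2 p q b) = ip a b -
      (ip q q * ip p a * ip p b - ip p q * (ip p a * ip q b + ip q a * ip p b) +
        ip p p * ip q a * ip q b) / gram2 p q := by
  obtain ⟨h1, h2⟩ := perp2_orth h b
  rw [ip_perp2 (m := perp2 p q b) (by rw [ip_comm]; exact h1) (by rw [ip_comm]; exact h2) a]
  simp [perp2, lift2, ip_comm a p, ip_comm a q]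
  ring

/-- Gram determinant of three vectors. -/
def gram3 (p q w : V4) : ℝ :=
  ip w w * gram2 p q - ip p w ^ 2 * ip q q + 2 * (ip p q * ip p w * ip q w) - ip q w ^ 2 * ip p p

theorem perp2_sq {p q : V4} (h : gram2 p q ≠ 0) (w : V4) :
    ip (perp2 p q w) (perp2 p q w) * gram2 p q = gram3 p q w := by
  simp [perp2, lift2, gram3, ip_comm q p, ip_comm w p, ip_comm w q]
  field_simp
  unfold gram2
  ring

theorem gram3_swap (p q w : V4) : gram3 p w q = gram3 p q w := by
  simp [gram3, gram2, ip_comm w q]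
  ring

/-- The Gram determinant of `p, w` against the part of `w` normal to the plane of `p, q`. -/
theorem gram2_ge {p q : V4} (h : 0 < gram2 p q) (w : V4) :
    ip p p * ip (perp2 p q w) (perp2 p q w) ≤ gram2 p w := by
  refine le_of_mul_le_mul_right ?_ h
  rw [mul_assoc, perp2_sq h.ne']
  simp [gram3, gram2]
  nlinarith [sq_nonneg (ip q w * ip p p - ip p q * ip p w)]

/-- The part of `q` normal to the plane of `p, w`. -/
theorem perp2_sq_swap {p q w : V4} (h : gram2 p q ≠ 0) (hw : gram2 p w ≠ 0) :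
    ip (perp2 p w q) (perp2 p w q) * gram2 p w =
      ip (perp2 p q w) (perp2 p q w) * gram2 p q := by
  rw [perp2_sq hw, perp2_sq h, gram3_swap]

/-- **Growth under a wave.** Lengthening the part of `q` normal to the plane of `p, w` in any
normal direction cannot shrink the part of `w` normal to the plane of `p, q`. -/
theorem perp2_wave {p w r r' : V4} (hG : 0 < gram2 p w) {α β a a' : ℝ} (ha : 0 < a) (haa : a ≤ a')
    (hr : ip r r = 1 ∧ ip p r = 0 ∧ ip w r = 0) (hr' : ip r' r' = 1 ∧ ip p r' = 0 ∧ ip w r' = 0) :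
    len (perp2 p (α • p + β • w + a • r) w) ≤ len (perp2 p (α • p + β • w + a' • r') w) := by
  have e : ∀ (s : V4) (b : ℝ), ip s s = 1 ∧ ip p s = 0 ∧ ip w s = 0 →
      gram2 p (α • p + β • w + b • s) = β ^ 2 * gram2 p w + b ^ 2 * ip p p ∧
      gram3 p (α • p + β • w + b • s) w = b ^ 2 * gram2 p w := by
    rintro s b ⟨s1, s2, s3⟩
    simp [gram3, gram2, s1, s2, s3, ip_comm s p, ip_comm s w, ip_comm w p]
    constructor <;> ring
  have hpp : 0 < ip p p := by
    have := ip_self_nonneg p
    unfold gram2 at hG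
    rcases this.eq_or_lt with h | h
    · rw [← h] at hG; nlinarith [sq_nonneg (ip p w)]
    · exact h
  have ha' : 0 < a' := ha.trans_le haa
  have pos : ∀ b : ℝ, 0 < b → 0 < β ^ 2 * gram2 p w + b ^ 2 * ip p p := fun b hb => by positivity
  refine len_mono ?_
  obtain ⟨g, t⟩ := e r a hr
  obtain ⟨g', t'⟩ := e r' a' hr'
  have q := perp2_sq (p := p) (q := α • p + β • w + a • r) (by rw [g]; exact (pos a ha).ne') w
  have q' := perp2_sq (p := p) (q := α • p + β • w + a' • r') (by rw [g']; exact (pos a' ha').ne') w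
  rw [g, t] at q
  rw [g', t'] at q'
  rw [eq_div_iff (pos a ha).ne' |>.2 q, eq_div_iff (pos a' ha').ne' |>.2 q',
    div_le_div_iff₀ (pos a ha) (pos a' ha')]
  have hsq : a ^ 2 ≤ a' ^ 2 := pow_le_pow_left₀ ha.le haa 2
  nlinarith [mul_nonneg (mul_nonneg (sub_nonneg.2 hsq) hG.le) (mul_nonneg (sq_nonneg β) hG.le)]

end Vale.Agent.P205.Legal
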